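import Vale.Agent.Lib.P110.Kron

namespace Vale.Agent.Results.P110.KroneckerFactor

open Vale.Agent.Lib.P110

/-- Real Littlewood polynomials with a Kronecker factor are not flat.
Let `ξ`, `α`, `η` be sign sequences of lengths `x ≥ 1`, `a ≥ 2`, `y ≥ 1` and let `P` be the real
Littlewood polynomial of length `N = x a y` whose sign sequence is their Kronecker product,
`ε (i + x j + x a l) = ξ i * α j * η l` for `i < x`, `j < a`, `l < y`.  Then some point `z` of
the unit circle has `| |P z| / sqrt N - 1 | ≥ 1 / (3 a)`.  In particular no sequence of such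
polynomials with bounded `a` is ultraflat. -/
theorem result (x a y : ℕ) (hx : 1 ≤ x) (ha : 2 ≤ a) (hy : 1 ≤ y) (ξ α η : ℕ → ℤ)
    (hξ : ∀ i, ξ i = 1 ∨ ξ i = -1) (hα : ∀ i, α i = 1 ∨ α i = -1)
    (hη : ∀ i, η i = 1 ∨ η i = -1) :
    ∃ z : ℂ, ‖z‖ = 1 ∧ 1 / (3 * (a : ℝ)) ≤
      |‖littlewood (x * a * y) (fun k => ξ (k % x) * α (k / x % a) * η (k / (x * a))) z‖
        / Real.sqrt ((x * a * y : ℕ) : ℝ) - 1| :=
  kron_dev x a y hx ha hy ξ α η hξ hα hη

end Vale.Agent.Results.P110.KroneckerFactor
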