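import Vale.Agent.Lib.P110.Mult

namespace Vale.Agent.Results.P110.KroneckerMultiplicativity

open Vale.Agent.Lib.P110

/-- Flatness of real Littlewood polynomials is multiplicative under Kronecker products of sign
patterns.

Let `ξ`, `η` be sign sequences of lengths `x, y ≥ 1`, let `X`, `Q` be the Littlewood polynomials
of lengths `x`, `y` with these signs and `P` the Littlewood polynomial of length `x y` whose sign
sequence is the Kronecker product `ε (i + x j) = ξ i * η j` (so `P z = X z * Q (z ^ x)`).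

(A) If `| |P z| / sqrt (x y) - 1 | ≤ δ` on the unit circle with `δ < 1`, then
`| |Q w| / sqrt y - 1 | ≤ δ` and `| |X z| / sqrt x - 1 | ≤ 2 δ / (1 - δ)` on the unit circle.

(B) If `| |X z| / sqrt x - 1 | ≤ δ₁` and `| |Q w| / sqrt y - 1 | ≤ δ₂` on the unit circle, then
`| |P z| / sqrt (x y) - 1 | ≤ δ₁ + δ₂ + δ₁ δ₂` on the unit circle.

(C) A threefold Kronecker product with middle factor of length `a ≥ 2` has a point of the unit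
circle where `| |P z| / sqrt N - 1 | ≥ 1 / (3 a)`. -/
theorem result :
    (∀ (x y : ℕ) (ξ η : ℕ → ℤ), 1 ≤ x → 1 ≤ y →
      (∀ i, ξ i = 1 ∨ ξ i = -1) → (∀ i, η i = 1 ∨ η i = -1) →
      (∀ δ : ℝ, δ < 1 →
        (∀ z : ℂ, ‖z‖ = 1 →
          |‖littlewood (x * y) (fun k => ξ (k % x) * η (k / x)) z‖
            / Real.sqrt ((x * y : ℕ) : ℝ) - 1| ≤ δ) →
        (∀ w : ℂ, ‖w‖ = 1 → |‖littlewood y η w‖ / Real.sqrt (y : ℝ) - 1| ≤ δ) ∧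
        (∀ z : ℂ, ‖z‖ = 1 →
          |‖littlewood x ξ z‖ / Real.sqrt (x : ℝ) - 1| ≤ 2 * δ / (1 - δ))) ∧
      (∀ δ₁ δ₂ : ℝ,
        (∀ z : ℂ, ‖z‖ = 1 → |‖littlewood x ξ z‖ / Real.sqrt (x : ℝ) - 1| ≤ δ₁) →
        (∀ w : ℂ, ‖w‖ = 1 → |‖littlewood y η w‖ / Real.sqrt (y : ℝ) - 1| ≤ δ₂) →
        ∀ z : ℂ, ‖z‖ = 1 →
          |‖littlewood (x * y) (fun k => ξ (k % x) * η (k / x)) z‖
            / Real.sqrt ((x * y : ℕ) : ℝ) - 1| ≤ δ₁ + δ₂ + δ₁ * δ₂)) ∧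
    (∀ (x a y : ℕ) (ξ α η : ℕ → ℤ), 1 ≤ x → 2 ≤ a → 1 ≤ y →
      (∀ i, ξ i = 1 ∨ ξ i = -1) → (∀ i, α i = 1 ∨ α i = -1) → (∀ i, η i = 1 ∨ η i = -1) →
      ∃ z : ℂ, ‖z‖ = 1 ∧ 1 / (3 * (a : ℝ)) ≤
        |‖littlewood (x * a * y) (fun k => ξ (k % x) * α (k / x % a) * η (k / (x * a))) z‖
          / Real.sqrt ((x * a * y : ℕ) : ℝ) - 1|) :=
  ⟨fun x y ξ η hx hy hξ _ =>
      ⟨fun δ hδ hP => kron_inherit x y hx hy ξ η hξ δ hδ hP,
        fun δ₁ δ₂ hX hQ => kron_prod x y hx ξ η δ₁ δ₂ hX hQ⟩,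
    fun x a y ξ α η hx ha hy hξ hα hη => kron_dev x a y hx ha hy ξ α η hξ hα hη⟩

end Vale.Agent.Results.P110.KroneckerMultiplicativity
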