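import Vale.Agent.Lib.P110.Poly

namespace Vale.Agent.Results.P110.PolyphaseComplementary

open Vale.Agent.Lib.P110

/-- A necessary condition for flatness of a real Littlewood polynomial.  Let `ε` be a sign
sequence, `N = x m`, `P z = ∑_{k<N} ε_k z^k`, and let `A_j w = ∑_{k<m} ε_{k x + j} w^k`,
`j < x`, be its `x` polyphase components (so `P z = ∑_{j<x} z^j A_j (z^x)`).  If
`| |P z| / sqrt N - 1 | ≤ δ` on the unit circle with `δ < 1`, then
`(1 - δ)² N ≤ ∑_{j<x} |A_j w|² ≤ (1 + δ)² N` for every `w` on the unit circle: the decimated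
subsequences form an almost complementary set (for `x = 2`, an almost Golay pair). -/
theorem result (x m : ℕ) (hx : 1 ≤ x) (hm : 1 ≤ m) (ε : ℕ → ℤ)
    (hε : ∀ i, ε i = 1 ∨ ε i = -1) (δ : ℝ) (hδ : δ < 1)
    (hP : ∀ z : ℂ, ‖z‖ = 1 →
      |‖littlewood (x * m) ε z‖ / Real.sqrt ((x * m : ℕ) : ℝ) - 1| ≤ δ) :
    ∀ w : ℂ, ‖w‖ = 1 →
      (1 - δ) ^ 2 * ((x * m : ℕ) : ℝ)
          ≤ ∑ j ∈ Finset.range x, ‖littlewood m (fun k => ε (k * x + j)) w‖ ^ 2 ∧
      ∑ j ∈ Finset.range x, ‖littlewood m (fun k => ε (k * x + j)) w‖ ^ 2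
          ≤ (1 + δ) ^ 2 * ((x * m : ℕ) : ℝ) :=
  have _ := hε
  polyphase_flat x m hx hm ε δ hδ hP

end Vale.Agent.Results.P110.PolyphaseComplementary
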