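import Vale.Agent.Lib.P110.Prim

namespace Vale.Agent.Results.P110.PrimitiveReduction

open Vale.Agent.Lib.P110

/-- Reduction of the flatness question for real Littlewood polynomials to Kronecker-primitive
sign patterns.  A sign pattern `ε` of length `N` is a nontrivial Kronecker product if
`N = x y` with `x, y ≥ 2` and `ε k = ξ (k % x) * η (k / x)` for `k < N`, for sign sequences
`ξ`, `η`; otherwise it is Kronecker-primitive.

First part: there is `c > 0` such that for all large `N` every real Littlewood polynomial of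
length `N` with Kronecker-primitive sign pattern has a point `z` of the unit circle with
`| |P z| / sqrt N - 1 | ≥ c`, if and only if the same holds for all real Littlewood polynomials
of large length (alternative (ii) of the problem).

Second part, quantitative: if every Kronecker-primitive sign pattern of length `N ≥ N₀`
(`N₀ ≥ 2`) has such a point with deviation at least `c`, then every sign pattern of length
`N ≥ 2` has a point with deviation at least `min c (1 / (3 N₀))`. -/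
theorem result :
    ((∃ c : ℝ, 0 < c ∧ ∃ N₀ : ℕ, ∀ (N : ℕ) (ε : ℕ → ℤ), N₀ ≤ N →
        (∀ i, ε i = 1 ∨ ε i = -1) →
        (¬ ∃ (x y : ℕ) (ξ η : ℕ → ℤ), 2 ≤ x ∧ 2 ≤ y ∧ N = x * y ∧
          (∀ i, ξ i = 1 ∨ ξ i = -1) ∧ (∀ i, η i = 1 ∨ η i = -1) ∧
          ∀ k, k < N → ε k = ξ (k % x) * η (k / x)) →
        ∃ z : ℂ, ‖z‖ = 1 ∧ c ≤ |‖littlewood N ε z‖ / Real.sqrt (N : ℝ) - 1|) ↔
      (∃ c : ℝ, 0 < c ∧ ∃ N₀ : ℕ, ∀ (N : ℕ) (ε : ℕ → ℤ), N₀ ≤ N →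
        (∀ i, ε i = 1 ∨ ε i = -1) →
        ∃ z : ℂ, ‖z‖ = 1 ∧ c ≤ |‖littlewood N ε z‖ / Real.sqrt (N : ℝ) - 1|)) ∧
    (∀ (c : ℝ) (N₀ : ℕ), 2 ≤ N₀ →
      (∀ (N : ℕ) (ε : ℕ → ℤ), N₀ ≤ N → (∀ i, ε i = 1 ∨ ε i = -1) →
        (¬ ∃ (x y : ℕ) (ξ η : ℕ → ℤ), 2 ≤ x ∧ 2 ≤ y ∧ N = x * y ∧
          (∀ i, ξ i = 1 ∨ ξ i = -1) ∧ (∀ i, η i = 1 ∨ η i = -1) ∧
          ∀ k, k < N → ε k = ξ (k % x) * η (k / x)) →
        ∃ z : ℂ, ‖z‖ = 1 ∧ c ≤ |‖littlewood N ε z‖ / Real.sqrt (N : ℝ) - 1|) →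
      ∀ (N : ℕ) (ε : ℕ → ℤ), 2 ≤ N → (∀ i, ε i = 1 ∨ ε i = -1) →
        ∃ z : ℂ, ‖z‖ = 1 ∧
          min c (1 / (3 * (N₀ : ℝ))) ≤ |‖littlewood N ε z‖ / Real.sqrt (N : ℝ) - 1|) := by
  refine ⟨⟨?_, ?_⟩, fun c N₀ hN₀ hprim => prim_reduction c N₀ hN₀ hprim⟩
  · rintro ⟨c, hc, N₀, h⟩
    have hM : 2 ≤ max N₀ 2 := le_max_right _ _
    have hMpos : (0 : ℝ) < ((max N₀ 2 : ℕ) : ℝ) := by
      have : 0 < max N₀ 2 := by omega
      exact_mod_cast this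
    refine ⟨min c (1 / (3 * ((max N₀ 2 : ℕ) : ℝ))), lt_min hc (by positivity), 2, ?_⟩
    intro N ε hN hε
    exact prim_reduction c (max N₀ 2) hM
      (fun N' ε' hN' hε' hnot => h N' ε' (le_trans (le_max_left _ _) hN') hε' hnot) N ε hN hε
  · rintro ⟨c, hc, N₀, h⟩
    exact ⟨c, hc, N₀, fun N ε hN hε _ => h N ε hN hε⟩

end Vale.Agent.Results.P110.PrimitiveReduction
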